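import Vale.Agent.P095.Rel.Transfer.Norm
import Vale.Agent.P101.Lit.Transfer.Near
import Vale.Agent.P101.Lit.Tensor

/-! P095, nonunital algebras: estimates relative to an ideal. -/

open Filter Topology BoundedContinuousFunction
open scoped ComplexOrder unitInterval

namespace Vale.Agent.P095.Rel

open Vale.Agent.P101 Vale.Agent.P101.Lit
variable {B : Type*} [CStarAlgebra B] [PartialOrder B] [StarOrderedRing B] {A : Submodule ℂ B}
  {ω : Ultrafilter ℕ} {p q : ℕ}

variable {C B' : Type*} [CStarAlgebra C] [PartialOrder C] [StarOrderedRing C]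
  [CStarAlgebra B'] [PartialOrder B'] [StarOrderedRing B']

section Pieces

variable {l : Filter ℕ}

variable (π : C →⋆ₐ[ℂ] B') (φ : ℕ → C →⋆ₐ[ℂ] B)
  (hnull : ∀ c, π c = 0 → ∀ a ∈ A, Tendsto (fun n => φ n c * a) l (𝓝 0))
include hnull

set_option maxHeartbeats 1000000 in
-- the instances of the stages are expensive to unify
theorem eventually_invariant_le (ρ' : B' →⋆ₐ[ℂ] B') (τ : C →⋆ₐ[ℂ] C) (sg : B →⋆ₐ[ℂ] B)
    (hπτ : ∀ c, π (τ c) = ρ' (π c)) (hφτ : ∀ n c, φ n (τ c) = sg (φ n c)) {V : St B' p q}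
    (hV : mapSt ρ' V = V) {U : St C p q} {δ : ℝ} (hUV : ‖V - mapSt π U‖ ≤ δ) {a : B} (ha : a ∈ A)
    {η : ℝ} (hη : 0 < η) :
    ∀ᶠ n in l, ‖(mapSt sg (star (mapSt (φ n) U)) - star (mapSt (φ n) U)) * cst B p q a‖ ≤
      2 * δ * ‖a‖ + η := by
  have hz : ‖mapSt π (mapSt τ (star U) - star U)‖ ≤ 2 * δ := by
    have e : mapSt π (mapSt τ (star U)) = mapSt ρ' (mapSt π (star U)) :=
      Subtype.ext (ContinuousMap.ext fun t => CStarMatrix.ext fun i j => hπτ _)
    have e' : mapSt ρ' (mapSt π (star U)) - mapSt π (star U) =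
        mapSt ρ' (star (mapSt π U - V)) - star (mapSt π U - V) := by
      rw [star_sub, map_sub, map_star (mapSt π), map_star (mapSt ρ') V, hV]
      abel
    rw [map_sub, e, e']
    refine (norm_sub_le _ _).trans ?_
    have h0 := NonUnitalStarAlgHom.norm_apply_le (mapSt ρ') (star (mapSt π U - V))
    rw [norm_star, norm_sub_rev] at h0 ⊢
    linarith
  filter_upwards [eventually_norm_rel π φ hnull _ hz ha hη] with n hn
  have e : mapSt (φ n) (mapSt τ (star U)) = mapSt sg (star (mapSt (φ n) U)) := by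
    rw [← map_star (mapSt (φ n))]
    exact Subtype.ext (ContinuousMap.ext fun t => CStarMatrix.ext fun i j => hφτ n _)
  rwa [map_sub, map_star (mapSt (φ n)) U, e] at hn

set_option maxHeartbeats 1000000 in
-- the instances of the stages are expensive to unify
theorem eventually_absorb_le {V : St B' p q} (hV : V ∈ unitary (St B' p q)) {U : St C p q}
    (hU : U ∈ unitary (St C p q)) {δ : ℝ} (hUV : ‖V - mapSt π U‖ ≤ δ) {g : St ℂ p q} {r : C} {M : ℝ}
    (hrM : ‖π r‖ ≤ M)
    {ε : ℝ} (hVg : ‖V * cst B' p q (π r) * star V - lift B' p q g‖ ≤ ε) {a : B} (ha : a ∈ A)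
    {η : ℝ} (hη : 0 < η) :
    ∀ᶠ n in l, ‖(lift B p q g - mapSt (φ n) U * cst B p q (φ n r) * star (mapSt (φ n) U)) *
      cst B p q a‖ ≤ (ε + 2 * δ * M) * ‖a‖ + η := by
  have hz : ‖mapSt π (lift C p q g - U * cst C p q r * star U)‖ ≤ ε + 2 * δ * M := by
    rw [map_sub, map_mul, map_mul, map_star, mapSt_cst, mapSt_lift, norm_sub_rev]
    set c := cst B' p q (π r)
    have h2 := norm_conj_perturb (mapSt π U) V c
    rw [norm_sub_rev] at hUV
    have hδ0 : 0 ≤ δ := (norm_nonneg _).trans hUV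
    have hc : ‖c‖ ≤ M := (NonUnitalStarAlgHom.norm_apply_le _ _).trans hrM
    have h3 : ‖mapSt π U - V‖ * ‖c‖ * (‖mapSt π U‖ + ‖V‖) ≤ δ * M * 2 :=
      mul_le_mul (mul_le_mul hUV hc (norm_nonneg _) hδ0)
        (by linarith [norm_le_one_of_unitary (mapSt_mem_unitary π hU), norm_le_one_of_unitary hV])
        (by positivity) (mul_nonneg hδ0 ((norm_nonneg _).trans hrM))
    linarith [norm_sub_le_norm_sub_add_norm_sub (mapSt π U * c * star (mapSt π U))
      (V * c * star V) (lift B' p q g)]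
  filter_upwards [eventually_norm_rel π φ hnull _ hz ha hη] with n hn
  rwa [map_sub, map_mul, map_mul, map_star, mapSt_cst, mapSt_lift] at hn

end Pieces

end Vale.Agent.P095.Rel
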