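import Vale.Agent.P095.Rel.Transfer.Lifting
import Vale.Agent.P095.Rel.Transfer.Pieces

/-! P095, nonunital algebras: transfer relative to an ideal, in the abstract. -/

open Filter Topology BoundedContinuousFunction
open scoped ComplexOrder unitInterval

namespace Vale.Agent.P095.Rel

open Vale.Agent.P101 Vale.Agent.P101.Lit
variable {B : Type*} [CStarAlgebra B] [PartialOrder B] [StarOrderedRing B] {A : Submodule ℂ B}
  {ω : Ultrafilter ℕ} {p q : ℕ}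

variable {C B' : Type*} [CStarAlgebra C] [PartialOrder C] [StarOrderedRing C]
  [CStarAlgebra B'] [PartialOrder B'] [StarOrderedRing B']
theorem mapSt_mem_unitary_joined {D S : Type*} [CStarAlgebra D] [PartialOrder D]
    [StarOrderedRing D] [CStarAlgebra S] [PartialOrder S] [StarOrderedRing S] (ψ : D →⋆ₐ[ℂ] S)
    {w : unitary (St D p q)} (hw : Joined 1 w) :
    Joined 1 (⟨mapSt ψ (w : St D p q), mapSt_mem_unitary ψ w.2⟩ : unitary (St S p q)) := by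
  let Φ : unitary (St D p q) → unitary (St S p q) := fun z =>
    ⟨mapSt ψ (z : St D p q), mapSt_mem_unitary ψ z.2⟩
  have hΦc : Continuous Φ := Continuous.subtype_mk
    ((Lit.continuous_hom (mapSt ψ)).comp continuous_subtype_val) _
  have h1 : Φ 1 = 1 := Subtype.ext (map_one (mapSt ψ))
  obtain ⟨γ⟩ := hw
  exact h1 ▸ ⟨γ.map hΦc⟩

set_option maxHeartbeats 1000000 in
-- the instances of the stages are expensive to unify
/-- Transfer relative to `A`, in the abstract. -/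
theorem transfer_core_rel {H D : Type*} [CStarAlgebra D] [PartialOrder D] [StarOrderedRing D]
    {l : Filter ℕ} [l.NeBot] (π : C →⋆ₐ[ℂ] B') (φ : ℕ → C →⋆ₐ[ℂ] B)
    (hnull : ∀ c, π c = 0 → ∀ a ∈ A, Tendsto (fun n => φ n c * a) l (𝓝 0))
    (hcomm : ∀ c a, Tendsto (fun n => φ n c * a - a * φ n c) l (𝓝 0))
    (sg : H → B →⋆ₐ[ℂ] B) (τ : H → C →⋆ₐ[ℂ] C) (ρ : H → B' →⋆ₐ[ℂ] B')
    (hπτ : ∀ h c, π (τ h c) = ρ h (π c)) (hφτ : ∀ h n c, φ n (τ h c) = sg h (φ n c))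
    (hlift : ∀ d : B', ∃ r : C, π r = d ∧ ‖r‖ ≤ ‖d‖ + 1)
    (hdense : DenseRange (mapSt π : St C p q → St B' p q)) (ψ : D →⋆ₐ[ℂ] B')
    (hψ : ∀ h x, ρ h (ψ x) = ψ x) {w : unitary (St D p q)} (hJ : Joined 1 w)
    {G : Set (St ℂ p q)} (hG : G.Finite) (d : St ℂ p q → D) (hd : ∀ g, ‖d g‖ ≤ ‖g‖) {ε : ℝ}
    (hwG : ∀ g ∈ G,
      ‖(w : St D p q) * cst D p q (d g) * star (w : St D p q) - lift D p q g‖ ≤ ε)
    (F : Finset B) (Fa : Finset B) (hFa : ∀ a ∈ Fa, a ∈ A) (K : Finset H) {η : ℝ} (hη : 0 < η) :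
    ∃ v ∈ unitary (St B p q),
      (∀ a ∈ F, ‖v * cst B p q a - cst B p q a * v‖ ≤ η) ∧
      (∀ h ∈ K, ∀ a ∈ Fa, ‖(mapSt (sg h) (star v) - star v) * cst B p q a‖ ≤ η) ∧
      ∀ g ∈ G, ∃ c : B, ‖c‖ ≤ ‖g‖ + 1 ∧ ∀ a ∈ Fa,
        ‖(lift B p q g - v * cst B p q c * star v) * cst B p q a‖ ≤ ε * ‖a‖ + η := by
  obtain ⟨V, hVdef⟩ : ∃ V, V = mapSt ψ (w : St D p q) := ⟨_, rfl⟩
  have hVU : V ∈ unitary (St B' p q) := hVdef ▸ mapSt_mem_unitary ψ w.2
  have hclV : V ∈ closure ((mapSt π) '' (unitary (St C p q) : Set (St C p q))) :=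
    hVdef ▸ mem_closure_image_of_joined _ hdense (mapSt_mem_unitary_joined ψ hJ)
  choose r hr hrn using fun g : St ℂ p q => hlift (ψ (d g))
  have hψd : ∀ g, ‖ψ (d g)‖ ≤ ‖g‖ := fun g =>
    (NonUnitalStarAlgHom.norm_apply_le ψ _).trans (hd g)
  obtain ⟨M, hM0, hMF, hMG⟩ : ∃ M : ℝ, 1 ≤ M ∧ (∀ a ∈ Fa, ‖a‖ ≤ M) ∧
      ∀ g ∈ G, ‖g‖ ≤ M := by
    have h0 : 0 ≤ ∑ a ∈ Fa, ‖a‖ := Finset.sum_nonneg fun a _ => norm_nonneg a
    have h1 : 0 ≤ ∑ g ∈ hG.toFinset, ‖g‖ := Finset.sum_nonneg fun g _ => norm_nonneg g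
    refine ⟨1 + (∑ a ∈ Fa, ‖a‖) + ∑ g ∈ hG.toFinset, ‖g‖, by linarith, fun a ha => ?_,
      fun g hg => ?_⟩
    · linarith [Finset.single_le_sum (fun a _ => norm_nonneg a) ha]
    · linarith [Finset.single_le_sum (fun g _ => norm_nonneg g) (hG.mem_toFinset.2 hg)]
  obtain ⟨δ, hδ0, hδ⟩ : ∃ δ : ℝ, 0 < δ ∧ 2 * δ * (M * M) ≤ η / 2 :=
    ⟨η / (4 * (M * M)), by positivity, le_of_eq (by field_simp; ring)⟩
  obtain ⟨_, ⟨U, hU, rfl⟩, hUV⟩ := Metric.mem_closure_iff.1 hclV δ hδ0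
  rw [dist_eq_norm] at hUV
  have e1 := eventually_comm_le φ hcomm U F hη
  have e2 : ∀ᶠ n in l, ∀ h ∈ K, ∀ a ∈ Fa,
      ‖(mapSt (sg h) (star (mapSt (φ n) U)) - star (mapSt (φ n) U)) * cst B p q a‖ ≤ η := by
    refine K.eventually_all.2 fun h _ => Fa.eventually_all.2 fun a ha => ?_
    have hfix : mapSt (ρ h) V = V := by
      rw [hVdef]
      exact Subtype.ext (ContinuousMap.ext fun t => CStarMatrix.ext fun i j => hψ h _)
    filter_upwards [eventually_invariant_le π φ hnull (ρ h) (τ h) (sg h) (hπτ h)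
      (fun n c => hφτ h n c) hfix hUV.le (hFa a ha) (half_pos hη)] with n hn
    have hMM : δ * ‖a‖ ≤ δ * (M * M) :=
      mul_le_mul_of_nonneg_left ((hMF a ha).trans (le_mul_of_one_le_left (by linarith) hM0)) hδ0.le
    linarith
  have e3 : ∀ᶠ n in l, ∀ g ∈ G, ∀ a ∈ Fa,
      ‖(lift B p q g - mapSt (φ n) U * cst B p q (φ n (r g)) *
        star (mapSt (φ n) U)) * cst B p q a‖ ≤ ε * ‖a‖ + η := by
    refine hG.eventually_all.2 fun g hg => Fa.eventually_all.2 fun a ha => ?_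
    have hflip : ‖V * cst B' p q (π (r g)) * star V - lift B' p q g‖ ≤ ε := by
      rw [hr, hVdef]
      exact push_double_flip ψ (hwG g hg)
    filter_upwards [eventually_absorb_le π φ hnull hVU hU hUV.le
      ((congrArg norm (hr g)).trans_le ((hψd g).trans (hMG g hg))) hflip (hFa a ha) (half_pos hη)]
      with n hn
    have hMM : δ * M * ‖a‖ ≤ δ * (M * M) := by
      rw [mul_assoc]
      exact mul_le_mul_of_nonneg_left (mul_le_mul_of_nonneg_left (hMF a ha) (by linarith)) hδ0.le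
    linarith
  obtain ⟨n, hn1, hn2, hn3⟩ := (e1.and (e2.and e3)).exists
  exact ⟨mapSt (φ n) U, mapSt_mem_unitary _ hU, hn1, hn2, fun g hg =>
    ⟨φ n (r g), (NonUnitalStarAlgHom.norm_apply_le (φ n) _).trans
      ((hrn g).trans (by linarith [hψd g])), hn3 g hg⟩⟩

end Vale.Agent.P095.Rel
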