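import Vale.Agent.P095.Rel.Unitisation
import Vale.Agent.P101.Lit.Transfer.MapSt
import Vale.Agent.P101.Lit.Tensor

/-! P095, nonunital algebras: lifting of unitaries, and almost commuting lifts. -/

open Filter Topology BoundedContinuousFunction
open scoped ComplexOrder unitInterval

namespace Vale.Agent.P095.Rel

open Vale.Agent.P101 Vale.Agent.P101.Lit
section Lifting

variable {R S : Type*} [CStarAlgebra R] [CStarAlgebra S]

/-- Unitaries joined to `1` are near images of unitaries under a map with dense range. -/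
theorem mem_closure_image_of_joined (π : R →⋆ₐ[ℂ] S) (hπ : DenseRange π) {u : unitary S}
    (hu : Joined 1 u) : (u : S) ∈ closure (π '' (unitary R : Set R)) := by
  obtain ⟨l, rfl⟩ := Unitary.mem_pathComponentOne_iff.1 hu
  clear hu
  induction l with
  | nil => exact subset_closure ⟨1, one_mem _, by simp⟩
  | cons x xs ih =>
    rw [List.map_cons, List.prod_cons, Submonoid.coe_mul]
    refine map_mem_closure₂ (s := π '' (unitary R : Set R)) continuous_mul ?_ ih ?_
    · let re : S → selfAdjoint S := fun z => selfAdjointPart ℝ z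
      have hre : Continuous fun z => (selfAdjoint.expUnitary (re z) : S) :=
        continuous_subtype_val.comp (selfAdjoint.continuous_expUnitary.comp
          (by
            refine Continuous.subtype_mk ?_ _
            exact (continuous_id.add continuous_star).const_smul (⅟2 : ℝ)))
      have hx : re (x : S) = x := Subtype.ext (IsSelfAdjoint.coe_selfAdjointPart_apply ℝ x.2)
      have hmem : (x : S) ∈ closure (Set.range π) := hπ _
      have h := map_mem_closure hre hmem (t := π '' (unitary R : Set R)) ?_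
      · rwa [hx] at h
      rintro _ ⟨r, rfl⟩
      refine ⟨(selfAdjoint.expUnitary (selfAdjointPart ℝ r) : R), SetLike.coe_mem _, ?_⟩
      simp only [re, selfAdjoint.expUnitary_coe]
      let _ : NormedAlgebra ℚ R := NormedAlgebra.restrictScalars ℚ ℂ R
      let _ : Algebra ℚ S := Algebra.compHom S (algebraMap ℚ ℂ)
      rw [NormedSpace.map_exp π (continuous_hom π), map_smul]
      congr 2
      simp only [selfAdjointPart_apply_coe, ← map_star, ← map_add]
      exact map_smul ((π : R →ₐ[ℂ] S).restrictScalars ℝ) _ _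
    · rintro _ ⟨a, ha, rfl⟩ _ ⟨b, hb, rfl⟩
      exact ⟨a * b, mul_mem ha hb, map_mul π a b⟩

end Lifting

variable {B : Type*} [CStarAlgebra B] [PartialOrder B] [StarOrderedRing B] {A : Submodule ℂ B}
  {ω : Ultrafilter ℕ} {p q : ℕ}

variable {C B' : Type*} [CStarAlgebra C] [PartialOrder C] [StarOrderedRing C]
  [CStarAlgebra B'] [PartialOrder B'] [StarOrderedRing B']


variable {l : Filter ℕ}

set_option maxHeartbeats 1000000 in
-- the instances of the stages are expensive to unify
theorem eventually_comm_le (φ : ℕ → C →⋆ₐ[ℂ] B)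
    (hcomm : ∀ c a, Tendsto (fun n => φ n c * a - a * φ n c) l (𝓝 0))
    (U : St C p q) (F : Finset B) {η : ℝ} (hη : 0 < η) :
    ∀ᶠ n in l, ∀ a ∈ F, ‖mapSt (φ n) U * cst B p q a - cst B p q a * mapSt (φ n) U‖ ≤ η := by
  have hsum : 0 ≤ ∑ a ∈ F, ‖a‖ := Finset.sum_nonneg fun a _ => norm_nonneg a
  obtain ⟨m, d, e, hd⟩ := exists_tensor_approx U (show 0 < η / (4 * (1 + ∑ a ∈ F, ‖a‖)) by
    positivity)
  refine F.eventually_all.2 fun a ha => ?_
  have hT : Tendsto (fun n => ∑ i, ‖φ n (d i) * a - a * φ n (d i)‖ *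
      ‖lift B p q (e i)‖) l (𝓝 0) := by
    simpa using tendsto_finsetSum Finset.univ fun i _ =>
      ((tendsto_zero_iff_norm_tendsto_zero.1 (hcomm (d i) a)).mul_const ‖lift B p q (e i)‖)
  filter_upwards [hT.eventually (gt_mem_nhds (half_pos hη))] with n hn
  set T := ∑ i, cst B p q (φ n (d i)) * lift B p q (e i)
  have hUT : ‖mapSt (φ n) U - T‖ ≤ η / (4 * (1 + ∑ a ∈ F, ‖a‖)) := by
    refine le_trans ?_ hd
    rw [show T = mapSt (φ n) _ from (mapSt_tensor (φ n) d e).symm, ← map_sub]
    exact NonUnitalStarAlgHom.norm_apply_le _ _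
  have h1 := (norm_tensor_commutator_le (fun i => φ n (d i)) e a).trans hn.le
  have hca : ‖cst B p q a‖ ≤ 1 + ∑ a ∈ F, ‖a‖ := by
    linarith [NonUnitalStarAlgHom.norm_apply_le (cst B p q) a,
      Finset.single_le_sum (fun a _ => norm_nonneg a) ha]
  have h2 : ‖mapSt (φ n) U - T‖ * ‖cst B p q a‖ ≤ η / 4 := by
    calc _ ≤ η / (4 * (1 + ∑ a ∈ F, ‖a‖)) * (1 + ∑ a ∈ F, ‖a‖) :=
          mul_le_mul hUT hca (norm_nonneg _) (by positivity)
      _ = η / 4 := by field_simp
  have e : mapSt (φ n) U * cst B p q a - cst B p q a * mapSt (φ n) U =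
      (mapSt (φ n) U - T) * cst B p q a + (T * cst B p q a - cst B p q a * T) +
        cst B p q a * (T - mapSt (φ n) U) := by noncomm_ring
  rw [e]
  refine norm_add₃_le.trans ?_
  have h3 := (norm_mul_le (mapSt (φ n) U - T) (cst B p q a)).trans h2
  have h4 := (norm_mul_le (cst B p q a) (T - mapSt (φ n) U)).trans_eq (mul_comm _ _)
  rw [norm_sub_rev T] at h4
  linarith

end Vale.Agent.P095.Rel
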