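import Vale.Agent.P095.Rel.Unitisation
import Vale.Agent.P101.Lit.Transfer.MapSt

/-! P095, nonunital algebras: norms in stages, relative to an ideal. -/

open Filter Topology BoundedContinuousFunction
open scoped ComplexOrder unitInterval

namespace Vale.Agent.P095.Rel

open Vale.Agent.P101 Vale.Agent.P101.Lit
variable {B : Type*} [CStarAlgebra B] [PartialOrder B] [StarOrderedRing B] {A : Submodule ℂ B}
  {ω : Ultrafilter ℕ} {p q : ℕ}

variable {C B' : Type*} [CStarAlgebra C] [PartialOrder C] [StarOrderedRing C]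
  [CStarAlgebra B'] [PartialOrder B'] [StarOrderedRing B']

set_option maxHeartbeats 1000000 in
-- the instances of the stages are expensive to unify
/-- Entries vanishing on `A` give small products with elements of `A`, uniformly in the parameter. -/
theorem eventually_norm_entries_rel {l : Filter ℕ} (φ : ℕ → C →⋆ₐ[ℂ] B) (y : St C p q) {a : B}
    (h : ∀ t u w, Tendsto (fun n => φ n ((y : Amb C p q) t u w) * a) l (𝓝 0)) {η : ℝ}
    (hη : 0 < η) : ∀ᶠ n in l, ‖mapSt (φ n) y * cst B p q a‖ ≤ η := by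
  have hnullt : ∀ t : I, Tendsto
      (fun n => ‖mapMat (φ n) ((y : Amb C p q) t) * (cst B p q a : Amb B p q) t‖) l (𝓝 0) := by
    intro t
    rw [← tendsto_zero_iff_norm_tendsto_zero]
    refine tendsto_pi_nhds.2 fun u => tendsto_pi_nhds.2 fun w => ?_
    refine (h t u w).congr fun n => ?_
    show φ n ((y : Amb C p q) t u w) * a =
      (mapMat (φ n) ((y : Amb C p q) t) * (cst B p q a : Amb B p q) t) u w
    simp [CStarMatrix.mul_apply, mapMat]
  obtain ⟨d, hd, hyd⟩ := Metric.uniformContinuous_iff.1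
    (CompactSpace.uniformContinuous_of_continuous (y : Amb C p q).continuous)
    (η / 2 / (‖cst B p q a‖ + 1)) (by positivity)
  obtain ⟨N, -, hN, hcov⟩ :=
    finite_cover_balls_of_compact (s := (Set.univ : Set I)) isCompact_univ hd
  have hsmall : ∀ᶠ n in l, ∀ t ∈ N,
      ‖mapMat (φ n) ((y : Amb C p q) t) * (cst B p q a : Amb B p q) t‖ < η / 2 :=
    hN.eventually_all.2 fun t _ => (hnullt t).eventually (gt_mem_nhds (half_pos hη))
  filter_upwards [hsmall] with n hn
  refine (ContinuousMap.norm_le _ hη.le).2 fun t => ?_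
  show ‖mapMat (φ n) ((y : Amb C p q) t) * (cst B p q a : Amb B p q) t‖ ≤ η
  obtain ⟨t₀, ht₀, htt⟩ := Set.mem_iUnion₂.1 (hcov (Set.mem_univ t))
  have hclose := hyd (Metric.mem_ball.1 htt)
  rw [dist_eq_norm] at hclose
  have h1 := NonUnitalStarAlgHom.norm_apply_le (mapMat (φ n))
    ((y : Amb C p q) t - (y : Amb C p q) t₀)
  rw [map_sub] at h1
  have h4 : ‖(cst B p q a : Amb B p q) t‖ ≤ ‖cst B p q a‖ :=
    ContinuousMap.norm_coe_le_norm _ t
  have h3 : ‖(mapMat (φ n) ((y : Amb C p q) t) - mapMat (φ n) ((y : Amb C p q) t₀)) *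
      (cst B p q a : Amb B p q) t‖ ≤ η / 2 :=
    calc _ ≤ η / 2 / (‖cst B p q a‖ + 1) * (‖cst B p q a‖ + 1) :=
          (norm_mul_le _ _).trans (mul_le_mul (h1.trans hclose.le) (by linarith) (norm_nonneg _)
            (by positivity))
      _ = η / 2 := by field_simp
  have h5 := hn t₀ ht₀
  rw [show (cst B p q a : Amb B p q) t₀ = (cst B p q a : Amb B p q) t from rfl] at h5
  rw [sub_mul] at h3
  linarith [norm_le_norm_add_norm_sub'
    (mapMat (φ n) ((y : Amb C p q) t) * (cst B p q a : Amb B p q) t)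
    (mapMat (φ n) ((y : Amb C p q) t₀) * (cst B p q a : Amb B p q) t)]

set_option maxHeartbeats 1000000 in
-- the instances of the stages are expensive to unify
/-- Norms after `π` bound the terms on `A`, if the kernel of `π` vanishes on `A`. -/
theorem eventually_norm_rel {l : Filter ℕ} (π : C →⋆ₐ[ℂ] B') (φ : ℕ → C →⋆ₐ[ℂ] B)
    (hnull : ∀ c, π c = 0 → ∀ a ∈ A, Tendsto (fun n => φ n c * a) l (𝓝 0))
    (x : St C p q) {c : ℝ} (h : ‖mapSt π x‖ ≤ c) {a : B} (ha : a ∈ A) {η : ℝ} (hη : 0 < η) :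
    ∀ᶠ n in l, ‖mapSt (φ n) x * cst B p q a‖ ≤ c * ‖a‖ + η := by
  have hc : 0 ≤ c := (norm_nonneg _).trans h
  set T := star x * x with hT
  have hTsa : IsSelfAdjoint T := IsSelfAdjoint.star_mul_self x
  set f : ℝ → ℝ := fun s => max (s - c ^ 2) 0 with hf
  set g : ℝ → ℝ := fun s => min s (c ^ 2) with hg
  have hfc : Continuous f := by fun_prop
  have hgc : Continuous g := by fun_prop
  have hq : mapSt π (cfc f T) = 0 := by
    rw [StarAlgHomClass.map_cfc (mapSt π) f T hfc.continuousOn (continuous_hom _) hTsa (hTsa.map _)]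
    refine (cfc_congr fun s hs => ?_).trans (cfc_zero ℝ _)
    rcases subsingleton_or_nontrivial (St B' p q) with _ | _
    · simp [spectrum.of_subsingleton] at hs
    have h1 : ‖s‖ ≤ c ^ 2 := by
      refine (spectrum.norm_le_norm_of_mem hs).trans ?_
      rw [hT, map_mul, map_star, CStarRing.norm_star_mul_self, sq]
      exact mul_self_le_mul_self (norm_nonneg _) h
    simp only [hf, Pi.zero_apply]
    exact max_eq_right (by linarith [(abs_le.1 h1).2])
  have hsum : cfc g T + cfc f T = T := by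
    rw [← cfc_add T g f hgc.continuousOn hfc.continuousOn]
    refine (cfc_congr fun s _ => ?_).trans (cfc_id ℝ T)
    simp only [hf, hg, id]
    rcases le_total s (c ^ 2) with h' | h'
    · rw [min_eq_left h', max_eq_right (by linarith), add_zero]
    · rw [min_eq_right h', max_eq_left (by linarith)]; ring
  have hgn : ‖cfc g T‖ ≤ c ^ 2 := norm_cfc_le (sq_nonneg c) fun s hs => by
    have h2 : 0 ≤ s := spectrum_star_mul_self_nonneg s hs
    rw [hg, Real.norm_of_nonneg (le_min h2 (sq_nonneg c))]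
    exact min_le_right _ _
  obtain ⟨y, hy⟩ : ∃ y : St C p q, y = cfc f T := ⟨_, rfl⟩
  rw [← hy] at hq hsum
  set η' := η ^ 2 / (4 * (‖cst B p q a‖ + 1)) with hη'
  have hη'0 : 0 < η' := by positivity
  filter_upwards [eventually_norm_entries_rel (l := l) φ y (fun t u w => hnull _
    (congrArg (fun z : St B' p q => (z : Amb B' p q) t u w) hq) a ha)
    (show 0 < 2 * η' by positivity)] with n hbound
  set X := mapSt (φ n) x * cst B p q a with hX
  have e : star X * X = star (cst B p q a) * mapSt (φ n) (cfc g T) * cst B p q a +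
      star (cst B p q a) * (mapSt (φ n) y * cst B p q a) := by
    rw [← mul_assoc _ (mapSt (φ n) y), ← add_mul, ← mul_add, ← map_add, hsum, hX, hT, map_mul,
      map_star, star_mul]
    simp only [mul_assoc]
  have hcst : ‖cst B p q a‖ ≤ ‖a‖ := NonUnitalStarAlgHom.norm_apply_le _ a
  have k1 : ‖star (cst B p q a) * mapSt (φ n) (cfc g T) * cst B p q a‖ ≤
      ‖a‖ * c ^ 2 * ‖a‖ := by
    refine norm_mul₃_le.trans ?_
    rw [norm_star]
    gcongr
    exact (NonUnitalStarAlgHom.norm_apply_le _ _).trans hgn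
  have k2 : ‖star (cst B p q a) * (mapSt (φ n) y * cst B p q a)‖ ≤
      ‖cst B p q a‖ * (2 * η') := by
    refine (norm_mul_le _ _).trans ?_
    rw [norm_star]
    gcongr
  have k3 : ‖cst B p q a‖ * (2 * η') ≤ η ^ 2 := by
    have hn0 := norm_nonneg (cst B p q a)
    rw [hη', mul_div_assoc', mul_div_assoc', div_le_iff₀ (by positivity)]
    nlinarith [mul_nonneg hn0 (sq_nonneg η), sq_nonneg η]
  have hsq : ‖X‖ * ‖X‖ ≤ ‖a‖ * c ^ 2 * ‖a‖ + η ^ 2 := by
    rw [← CStarRing.norm_star_mul_self, e]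
    exact (norm_add_le _ _).trans (add_le_add k1 (k2.trans k3))
  nlinarith [norm_nonneg X, mul_nonneg hc (norm_nonneg a),
    mul_nonneg (mul_nonneg hc (norm_nonneg a)) hη.le]

end Vale.Agent.P095.Rel
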